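import Mathlib

/-!
# Row 211, package (F2) "KEY" of `notes/row211_plan.md`

A pure real inequality: with `c = 1/1000`, `M = 4000000`, `r = c²/800` and
`φ(x,y) = c x y + (c²/4)(y² - x²) + (c²/2)(y⁴ - x⁴)`:

if `|s| ≤ 1`, `s - 1/M ≤ τm ≤ τp ≤ s + 1/M`, `|τm| ≤ 1`, `|τp| ≤ 1`, `0 ≤ t`, `|x| ≤ 1 - t`, `|y| ≤ t`,
`t ≤ 1/2 + φ(x,y)`, `ρ = t - x c s/2` and `τm ρ ≤ y - x (c/4)(1+s²) ≤ τp ρ`, then
`ρ ≤ 1/2 + (c²/16)(s² + s⁴) + r`.
-/

namespace Crest.Agent.Helper24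

/-- `|a| ≤ A`, `|b| ≤ B` ⟹ `a * b ≤ A * B`. -/
theorem mul_le_of_bounds {a b A B : ℝ} (ha : -A ≤ a) (ha' : a ≤ A) (hb : -B ≤ b) (hb' : b ≤ B) :
    a * b ≤ A * B := by
  have h1 : 0 ≤ (A - a) * (B + b) := mul_nonneg (by linarith) (by linarith)
  have h2 : 0 ≤ (A + a) * (B - b) := mul_nonneg (by linarith) (by linarith)
  linarith [h1, h2]

/-- `|a| ≤ A`, `|b| ≤ B` ⟹ `-(A * B) ≤ a * b`. -/
theorem neg_le_mul_of_bounds {a b A B : ℝ} (ha : -A ≤ a) (ha' : a ≤ A) (hb : -B ≤ b)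
    (hb' : b ≤ B) : -(A * B) ≤ a * b := by
  have h1 : 0 ≤ (A - a) * (B - b) := mul_nonneg (by linarith) (by linarith)
  have h2 : 0 ≤ (A + a) * (B + b) := mul_nonneg (by linarith) (by linarith)
  linarith [h1, h2]

/-- `|a| ≤ A` ⟹ `a² ≤ A²`. -/
theorem sq_le_of_bounds {a A : ℝ} (h1 : -A ≤ a) (h2 : a ≤ A) : a ^ 2 ≤ A ^ 2 := by
  have := mul_le_of_bounds h1 h2 h1 h2
  linarith

/-- Core of (F2): the case `t > 0.49`, `ρ > 1/2`, with the slope `τ = (y - x (c/4)(1+s²))/ρ`. -/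
theorem fan_key_core (s τ t x y ρ : ℝ) (hs1 : -1 ≤ s) (hs2 : s ≤ 1)
    (hτ1 : s - 1/4000000 ≤ τ) (hτ2 : τ ≤ s + 1/4000000) (hτ3 : -1 ≤ τ) (hτ4 : τ ≤ 1)
    (ht2 : t ≤ 5011/10000)
    (hx1 : -(51/100) ≤ x) (hx2 : x ≤ 51/100) (hy1 : -t ≤ y) (hy2 : y ≤ t)
    (hφ : t ≤ 1/2 + ((1/1000)*x*y + ((1/1000)^2/4)*(y^2 - x^2) + ((1/1000)^2/2)*(y^4 - x^4)))
    (hρ : ρ = t - x * ((1/1000) * s / 2)) (he : 1/2 < ρ)
    (hy : y = x * (((1/1000)/4) * (1 + s^2)) + τ * ρ) :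
    ρ ≤ 1/2 + ((1/1000)^2/16) * (s^2 + s^4) + (1/1000)^2/800 := by
  have ht0 : 0 ≤ t := by linarith
  have hs_sq : s^2 ≤ 1 := by
    have := sq_le_of_bounds hs1 hs2
    linarith
  have hs4 : s^4 ≤ 1 := by
    have := mul_le_mul hs_sq hs_sq (sq_nonneg s) (by norm_num : (0:ℝ) ≤ 1)
    linarith
  have hy_sq : y^2 ≤ t^2 := sq_le_of_bounds hy1 hy2
  have ht_sq : t^2 ≤ 2512/10000 := by
    have := sq_le_of_bounds (by linarith : -(5011/10000 : ℝ) ≤ t) ht2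
    linarith
  have hy_sq' : y^2 ≤ 2512/10000 := le_trans hy_sq ht_sq
  have hy4 : y^4 ≤ 632/10000 := by
    have := mul_le_mul hy_sq' hy_sq' (sq_nonneg y) (by norm_num : (0:ℝ) ≤ 2512/10000)
    linarith
  -- the main inequality
  have hmain : (ρ - 1/2) * (1 - (1/1000) * x * τ) ≤ ((1/1000) * x / 2) * (τ - s)
      + (1/1000)^2 * (x^2 * s^2 / 4 - x^4 / 2 + y^2 / 4 + y^4 / 2) := by
    have hxy : (1/1000 : ℝ) * x * y
        = (1/1000) * x * (x * (((1/1000)/4) * (1 + s^2)) + τ * ρ) := by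
      rw [← hy]
    have ht' : t = ρ + x * ((1/1000) * s / 2) := by linarith
    have key : (ρ - 1/2) * (1 - (1/1000) * x * τ) - (((1/1000) * x / 2) * (τ - s)
        + (1/1000)^2 * (x^2 * s^2 / 4 - x^4 / 2 + y^2 / 4 + y^4 / 2))
        = (ρ + x * ((1/1000) * s / 2)) - (1/2 + ((1/1000) * x *
            (x * (((1/1000)/4) * (1 + s^2)) + τ * ρ)
          + ((1/1000)^2/4)*(y^2 - x^2) + ((1/1000)^2/2)*(y^4 - x^4))) := by ring
    linarith [hφ, hxy, ht', key]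
  have hxτ : x * τ ≤ 51/100 * 1 := mul_le_of_bounds hx1 hx2 hτ3 hτ4
  have hxτs : x * (τ - s) ≤ 51/100 * (1/4000000) :=
    mul_le_of_bounds hx1 hx2 (by linarith) (by linarith)
  have hq : x^2 * s^2 / 4 - x^4 / 2 ≤ s^4 / 32 := by linarith [sq_nonneg (x^2 - s^2/4)]
  have he0 : 0 < ρ - 1/2 := by linarith
  have hfac : 1 - 51/100000 ≤ 1 - (1/1000) * x * τ := by linarith
  have hlow : (ρ - 1/2) * (1 - 51/100000) ≤ (ρ - 1/2) * (1 - (1/1000) * x * τ) :=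
    mul_le_mul_of_nonneg_left hfac he0.le
  have hcrude : ρ - 1/2 ≤ 1/5000000 := by linarith
  -- `y` is close to `s/2`
  have hs1' : -2 ≤ 1 + s^2 := by linarith [sq_nonneg s]
  have hs2' : 1 + s^2 ≤ 2 := by linarith
  have hx1s : x * (1 + s^2) ≤ 51/100 * 2 := mul_le_of_bounds hx1 hx2 hs1' hs2'
  have hx1s' : -(51/100 * 2) ≤ x * (1 + s^2) := neg_le_mul_of_bounds hx1 hx2 hs1' hs2'
  have heτ : (ρ - 1/2) * τ ≤ 1/5000000 * 1 := mul_le_of_bounds (by linarith) hcrude hτ3 hτ4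
  have heτ' : -(1/5000000 * 1) ≤ (ρ - 1/2) * τ :=
    neg_le_mul_of_bounds (by linarith) hcrude hτ3 hτ4
  have hyd : y - s/2 = (1/1000)/4 * (x * (1 + s^2)) + (τ - s)/2 + (ρ - 1/2) * τ := by
    rw [hy]; ring
  have hΔ1 : y - s/2 ≤ 256/1000000 := by linarith
  have hΔ2 : -(256/1000000) ≤ y - s/2 := by linarith
  have hys1 : -(10011/10000) ≤ y + s/2 := by linarith
  have hys2 : y + s/2 ≤ 10011/10000 := by linarith
  have hD : y^2 - s^2/4 ≤ 256/1000000 * (10011/10000) := by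
    have := mul_le_of_bounds hΔ2 hΔ1 hys1 hys2
    linarith
  have hQ0 : 0 ≤ y^2 + s^2/4 := by positivity
  have hQ1 : y^2 + s^2/4 ≤ 5012/10000 := by linarith
  have hDQ : y^4 - s^4/16 ≤ 256/1000000 * (10011/10000) * (5012/10000) := by
    have h1 : (y^2 - s^2/4) * (y^2 + s^2/4)
        ≤ (256/1000000 * (10011/10000)) * (y^2 + s^2/4) :=
      mul_le_mul_of_nonneg_right hD hQ0
    have h2 : (256/1000000 * (10011/10000) : ℝ) * (y^2 + s^2/4)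
        ≤ (256/1000000 * (10011/10000)) * (5012/10000) :=
      mul_le_mul_of_nonneg_left hQ1 (by norm_num)
    linarith
  linarith

/-- **(F2) KEY**, numeral form (`c = 1/1000`, `M = 4000000`, `r = c²/800`). -/
theorem fan_key_num (s τm τp t x y ρ : ℝ) (hs : |s| ≤ 1)
    (h1 : s - 1/4000000 ≤ τm) (_h2 : τm ≤ τp) (h3 : τp ≤ s + 1/4000000)
    (hm : |τm| ≤ 1) (hp : |τp| ≤ 1) (ht : 0 ≤ t) (hx : |x| ≤ 1 - t) (hy : |y| ≤ t)
    (hφ : t ≤ 1/2 + ((1/1000)*x*y + ((1/1000)^2/4)*(y^2 - x^2) + ((1/1000)^2/2)*(y^4 - x^4)))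
    (hρ : ρ = t - x * ((1/1000) * s / 2))
    (hl : τm * ρ ≤ y - x * (((1/1000)/4) * (1 + s^2)))
    (hr : y - x * (((1/1000)/4) * (1 + s^2)) ≤ τp * ρ) :
    ρ ≤ 1/2 + ((1/1000)^2/16) * (s^2 + s^4) + (1/1000)^2/800 := by
  obtain ⟨hs1, hs2⟩ := abs_le.mp hs
  obtain ⟨hm1, hm2⟩ := abs_le.mp hm
  obtain ⟨hp1, hp2⟩ := abs_le.mp hp
  obtain ⟨hx1, hx2⟩ := abs_le.mp hx
  obtain ⟨hy1, hy2⟩ := abs_le.mp hy
  have ht1 : t ≤ 1 := by linarith [abs_nonneg x]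
  have hA : 0 ≤ ((1/1000 : ℝ)^2/16) * (s^2 + s^4) := by positivity
  have hxs : -(1 * 1) ≤ x * s := neg_le_mul_of_bounds (by linarith) (by linarith) hs1 hs2
  have hxy : x * y ≤ 1 * 1 :=
    mul_le_of_bounds (by linarith) (by linarith) (by linarith) (by linarith)
  have hy2' : y^2 ≤ 1 := by
    have := sq_le_of_bounds (by linarith : -(1:ℝ) ≤ y) (by linarith : y ≤ 1)
    linarith
  have hy4 : y^4 ≤ 1 := by
    have := mul_le_mul hy2' hy2' (sq_nonneg y) (by norm_num : (0:ℝ) ≤ 1)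
    linarith
  have ht2 : t ≤ 5011/10000 := by linarith [sq_nonneg x, sq_nonneg (x^2)]
  by_cases htc : t ≤ 49/100
  · have : ρ ≤ 1/2 := by rw [hρ]; linarith
    linarith
  rw [not_le] at htc
  by_cases he : ρ ≤ 1/2
  · linarith
  rw [not_le] at he
  have hρ0 : 0 < ρ := by linarith
  obtain ⟨τ, hτρ⟩ : ∃ τ : ℝ, τ * ρ = y - x * (((1/1000)/4) * (1 + s^2)) :=
    ⟨_, div_mul_cancel₀ _ hρ0.ne'⟩
  have hτ1 : τm ≤ τ := le_of_mul_le_mul_right (by rw [hτρ]; exact hl) hρ0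
  have hτ2 : τ ≤ τp := le_of_mul_le_mul_right (by rw [hτρ]; exact hr) hρ0
  exact fan_key_core s τ t x y ρ hs1 hs2 (by linarith) (by linarith) (by linarith) (by linarith)
    ht2 (by linarith) (by linarith) hy1 hy2 hφ hρ he (by linarith)

/-! ### The same statement with named constants (as in the plan) -/

/-- tilt constant `c` of the plan. -/
noncomputable def fanC : ℝ := 1/1000
/-- number `M` of subdivisions of the plan. -/
def fanM : ℕ := 4000000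
/-- margin `r = c²/800` of the plan. -/
noncomputable def fanR : ℝ := fanC^2/800
/-- interface function `φ` of the plan. -/
noncomputable def fanPhi (x y : ℝ) : ℝ :=
  fanC * x * y + (fanC^2/4) * (y^2 - x^2) + (fanC^2/2) * (y^4 - x^4)

theorem fanPhi_antisymm (x y : ℝ) : fanPhi y (-x) = - fanPhi x y := by
  unfold fanPhi; ring

/-- **(F2) KEY** of `notes/row211_plan.md`, with the named constants. -/
theorem fan_key (s τm τp t x y ρ : ℝ) (hs : |s| ≤ 1)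
    (h1 : s - 1/(fanM : ℝ) ≤ τm) (h2 : τm ≤ τp) (h3 : τp ≤ s + 1/(fanM : ℝ))
    (hm : |τm| ≤ 1) (hp : |τp| ≤ 1) (ht : 0 ≤ t) (hx : |x| ≤ 1 - t) (hy : |y| ≤ t)
    (hφ : t ≤ 1/2 + fanPhi x y)
    (hρ : ρ = t - x * (fanC * s / 2))
    (hl : τm * ρ ≤ y - x * ((fanC/4) * (1 + s^2)))
    (hr : y - x * ((fanC/4) * (1 + s^2)) ≤ τp * ρ) :
    ρ ≤ 1/2 + (fanC^2/16) * (s^2 + s^4) + fanR := by
  have hM : (fanM : ℝ) = 4000000 := by norm_num [fanM]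
  rw [hM] at h1 h3
  unfold fanPhi at hφ
  unfold fanR
  unfold fanC at *
  exact fan_key_num s τm τp t x y ρ hs h1 h2 h3 hm hp ht hx hy hφ hρ hl hr

end Crest.Agent.Helper24
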